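import Vale.Agent.P352.H496.Word
import Vale.Agent.P352.H496.Defs3

set_option linter.all false

/-!
# Net locality of the generators of the null deformations

For `X ∈ alg (Wdg a c y)` and `Y ∈ alg (Wdg c a y)`, `a·y = 0`, the commutator `[G a, X]` commutes
with `Y`: for `s ≥ 0` the deformed operator `S a s X S a (-s)` stays in the algebra of the wedge
`Wdg a c y`, differentiate from the right at `s = 0`.
-/

noncomputable section

open MeasureTheory SchwartzMap Complex Filter Topology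
open scoped SchwartzMap ComplexConjugate ENNReal LineDeriv

namespace Vale.Agent.P352.H834

open GF (Ix V Fn Sch ev pd bar sim bas o)
open H246 H496
open UniformSpace (Completion)

variable {D : Type*} [NormedAddCommGroup D] [InnerProductSpace ℂ D]
variable {Q : GF.Theory D}
variable {H : D → D} {alg : Set V → Set (D → D)} {S : V → ℝ → D → D} {G : V → D → D}

lemma nl_Gadj (N : CNet Q H alg S) (Gg : Gnr Q alg S G) {a : V} (ha : IsNull a) : H496.Adj (G a) (G a) := by
  intro v w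
  have h0 : S a 0 v = v := S_zero N.toNet ha v
  have h0' : S a 0 w = w := S_zero N.toNet ha w
  have h1 := (Gg.der a v ha).inner ℂ (hasDerivAt_const (0 : ℝ) w)
  have hneg : HasDerivAt (fun s : ℝ => S a (-s) w) (-(I • G a w)) 0 := by
    have := Gg.der a w ha
    rw [← neg_zero] at this
    have h2 := this.scomp (0 : ℝ) (hasDerivAt_neg (0 : ℝ))
    rw [neg_one_smul] at h2
    exact h2
  have h2 := (hasDerivAt_const (0 : ℝ) v).inner ℂ hneg
  have e : (fun t : ℝ => inner ℂ (S a t v) w) = fun t : ℝ => inner ℂ v (S a (-t) w) := by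
    funext t
    exact S_move N.toNet ha t v w
  rw [e] at h1
  have h3 := h1.unique h2
  simp only [inner_zero_right, zero_add, neg_zero, h0, inner_smul_left, inner_neg_right,
    inner_smul_right, conj_I, inner_zero_left, add_zero] at h3
  have h4 : I * inner ℂ (G a v) w = I * inner ℂ v (G a w) := by
    linear_combination -h3
  exact mul_left_cancel₀ I_ne_zero h4

lemma nl_neg (Gg : Gnr Q alg S G) {a : V} (ha : IsNull a) (v : D) :
    HasDerivAt (fun s : ℝ => S a (-s) v) (-(I • G a v)) 0 := by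
  have := Gg.der a v ha
  rw [← neg_zero] at this
  have h2 := this.scomp (0 : ℝ) (hasDerivAt_neg (0 : ℝ))
  rw [neg_one_smul] at h2
  exact h2

/-- derivative of the deformed operator -/
theorem nl_der (N : CNet Q H alg S) (Gg : Gnr Q alg S G) {a : V} (ha : IsNull a) {X : D → D}
    (hX : X ∈ alg Set.univ) (w v : D) :
    HasDerivAt (fun s : ℝ => inner ℂ w (S a s (X (S a (-s) v))))
      (I * inner ℂ w (G a (X v) - X (G a v))) 0 := by
  obtain ⟨C, m, hC⟩ := N.S_bdd a ha X hX v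
  obtain ⟨Y, hY, hadj⟩ := N.adj _ X hX
  have hA : H496.Adj X Y := hadj
  have hA' : H496.Adj Y X := hA.symm
  have h0v : S a 0 v = v := S_zero N.toNet ha v
  have h0w : S a 0 w = w := S_zero N.toNet ha w
  have hdv := nl_neg Gg ha v
  have hdw := nl_neg Gg ha w
  have hXsub : ∀ p q : D, X (p - q) = X p - X q := by
    intro p q
    have h1 : p - q = p + (-1 : ℂ) • q := by rw [neg_one_smul, sub_eq_add_neg]
    rw [h1, hA.add, hA.smul, neg_one_smul, ← sub_eq_add_neg]
  -- the second part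
  have hB := (hasDerivAt_const (0 : ℝ) (Y w)).inner ℂ hdv
  -- the first part
  have hfirst : HasDerivAt (fun s : ℝ => inner ℂ (S a (-s) w - w) (X (S a (-s) v)))
      (inner ℂ (-(I • G a w)) (X v)) 0 := by
    rw [hasDerivAt_iff_tendsto_slope_zero]
    have hz : inner ℂ (S a (-(0 : ℝ)) w - w) (X (S a (-(0 : ℝ)) v)) = (0 : ℂ) := by
      rw [neg_zero, h0w, sub_self, inner_zero_left]
    simp only [zero_add]
    rw [hz]
    have hs : Tendsto (fun t : ℝ => t⁻¹ • (S a (-t) w - w)) (𝓝[≠] 0) (𝓝 (-(I • G a w))) := by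
      have := hasDerivAt_iff_tendsto_slope_zero.1 hdw
      simpa only [zero_add, neg_zero, h0w] using this
    have hsp : Tendsto (fun t : ℝ => S a (-t) v) (𝓝[≠] 0) (𝓝 v) := by
      have := hdv.continuousAt.tendsto
      simp only [neg_zero, h0v] at this
      exact this.mono_left nhdsWithin_le_nhds
    have h2 : Tendsto (fun t : ℝ => inner ℂ (-(I • G a w)) (X (S a (-t) v))) (𝓝[≠] 0)
        (𝓝 (inner ℂ (-(I • G a w)) (X v))) := by
      have h3 : ∀ u : D, inner ℂ (-(I • G a w)) (X u) = inner ℂ (Y (-(I • G a w))) u := by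
        intro u
        exact (hA' _ _).symm
      simp only [h3]
      exact tendsto_const_nhds.inner hsp
    have hCn : Tendsto (fun t : ℝ => ‖t⁻¹ • (S a (-t) w - w) - -(I • G a w)‖ *
        (C * (1 + |-t|) ^ m)) (𝓝[≠] 0) (𝓝 (‖-(I • G a w) - -(I • G a w)‖ *
        (C * (1 + |-(0 : ℝ)|) ^ m))) := by
      refine ((hs.sub tendsto_const_nhds).norm).mul ?_
      have hc : Continuous fun t : ℝ => C * (1 + |-t|) ^ m := by fun_prop
      exact (hc.tendsto 0).mono_left nhdsWithin_le_nhds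
    rw [sub_self, norm_zero, zero_mul] at hCn
    have h4 : Tendsto (fun t : ℝ => inner ℂ (t⁻¹ • (S a (-t) w - w) - -(I • G a w))
        (X (S a (-t) v))) (𝓝[≠] 0) (𝓝 0) := by
      refine squeeze_zero_norm (fun t => ?_) hCn
      exact (norm_inner_le_norm _ _).trans
        (mul_le_mul_of_nonneg_left (hC (-t)) (norm_nonneg _))
    have h5 := h4.add h2
    rw [zero_add] at h5
    refine h5.congr fun t => ?_
    rw [← inner_add_left, sub_add_cancel, sub_zero, ← Complex.coe_smul,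
      inner_smul_left]
    simp [inner_sub_left]
  have htot := hfirst.fun_add hB
  have e1 : (fun s : ℝ => inner ℂ w (S a s (X (S a (-s) v)))) = fun s : ℝ =>
      inner ℂ (S a (-s) w - w) (X (S a (-s) v)) + inner ℂ (Y w) (S a (-s) v) := by
    funext s
    rw [inner_sub_left, ← (hA' w (S a (-s) v)).symm]
    have := S_move N.toNet ha (-s) w (X (S a (-s) v))
    rw [neg_neg] at this
    rw [this]
    ring
  rw [e1]
  refine htot.congr_deriv ?_
  rw [inner_zero_left, add_zero, inner_neg_left, inner_smul_left, conj_I, inner_neg_right,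
    inner_smul_right, inner_sub_right, (hA' w (G a v)),
    (nl_Gadj N Gg ha) w (X v)]
  ring

lemma nl_right {a c y z : V} (ha : IsNull a) (hac : 0 < GF.mdot a c) {s : ℝ} (hs : 0 ≤ s)
    (hz : GF.mdot a z = 0) (h : 0 < GF.mdot c (z - y)) : 0 < GF.mdot c (shf a s z - y) := by
  have h1 := orth_nonpos ha hz
  have h2 : GF.mdot c a = GF.mdot a c := gm_comm c a
  have h3 : GF.mdot c (shf a s z - y) = GF.mdot c (z - y) - s * GF.mdot z z * GF.mdot a c := by
    rw [shf, gm_sub, gm_sub, gm_smul, gm_sub, h2]; ring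
  rw [h3]
  have h4 : 0 ≤ -(s * GF.mdot z z) * GF.mdot a c := by
    apply mul_nonneg _ hac.le
    nlinarith
  linarith

lemma nl_left {a c y z : V} (ha : IsNull a) (hac : 0 < GF.mdot a c) {s : ℝ} (hs : s ≤ 0)
    (hz : GF.mdot a z = 0) (h : GF.mdot c (z - y) < 0) : GF.mdot c (shf a s z - y) < 0 := by
  have h1 := orth_nonpos ha hz
  have h2 : GF.mdot c a = GF.mdot a c := gm_comm c a
  have h3 : GF.mdot c (shf a s z - y) = GF.mdot c (z - y) - s * GF.mdot z z * GF.mdot a c := by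
    rw [shf, gm_sub, gm_sub, gm_smul, gm_sub, h2]; ring
  rw [h3]
  have h4 : 0 ≤ s * GF.mdot z z * GF.mdot a c := by
    apply mul_nonneg _ hac.le
    nlinarith
  linarith

lemma nl_univ (N : CNet Q H alg S) {O : Set V} {X : D → D} (hX : X ∈ alg O) :
    X ∈ alg Set.univ := N.mono O Set.univ (Set.subset_univ _) hX

/-- from commutation of the deformed operators on one side of `0` to the commutator with `G` -/
theorem nl_core (N : CNet Q H alg S) (Gg : Gnr Q alg S G) {a : V} (ha : IsNull a)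
    {X Y Y2 : D → D} (hX : X ∈ alg Set.univ) (hY : ∀ v w, inner ℂ (Y v) w = inner ℂ v (Y2 w))
    {I' : Set ℝ} (h0 : (0 : ℝ) ∈ I') (hI : UniqueDiffWithinAt ℝ I' 0)
    (hc : ∀ s ∈ I', ∀ v, S a s (X (S a (-s) (Y v))) = Y (S a s (X (S a (-s) v)))) (v : D) :
    G a (X (Y v)) - X (G a (Y v)) = Y (G a (X v) - X (G a v)) := by
  have hA : H496.Adj Y Y2 := hY
  have hA' : H496.Adj Y2 Y := hA.symm
  refine ext_inner_left ℂ fun w => ?_
  have h1 := (nl_der N Gg ha hX w (Y v)).hasDerivWithinAt (s := I')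
  have h2 := (nl_der N Gg ha hX (Y2 w) v).hasDerivWithinAt (s := I')
  have h3 : HasDerivWithinAt (fun s : ℝ => inner ℂ w (S a s (X (S a (-s) (Y v)))))
      (I * inner ℂ (Y2 w) (G a (X v) - X (G a v))) I' 0 := by
    refine h2.congr (fun s hs => ?_) ?_
    · rw [hc s hs v]; exact (hA' w _).symm
    · rw [hc 0 h0 v]; exact (hA' w _).symm
  have h4 := hI.eq_deriv _ h1 h3
  have h5 := mul_left_cancel₀ I_ne_zero h4
  rw [h5]
  exact hA' w _

/-- **Net locality of the null deformations**: `Y` commutes with the algebra of the wedge of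
`X`. -/
theorem net_commC (N : CNet Q H alg S) (Gg : Gnr Q alg S G) {a c y : V} (ha : IsNull a)
    (hc : IsNull c) (hac : 0 < GF.mdot a c) (hy : GF.mdot a y = 0) {X Y Y2 : D → D}
    (hX : X ∈ alg (Wdg a c y)) (hY : ∀ v w, inner ℂ (Y v) w = inner ℂ v (Y2 w))
    (hYc : ∀ Z ∈ alg (Wdg a c y), ∀ v, Y (Z v) = Z (Y v)) (v : D) :
    G a (X (Y v)) - X (G a (Y v)) = Y (G a (X v) - X (G a v)) := by
  refine nl_core N Gg ha (nl_univ N hX) hY (I' := Set.Ici 0) Set.self_mem_Ici
    (uniqueDiffOn_Ici 0 0 Set.self_mem_Ici) (fun s hs u => ?_) v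
  have h1 := N.S_right a c c y y s ha hc hc hac hac hy hy
    (fun z hz h => nl_right ha hac hs hz h) X hX
  exact (hYc _ h1 u).symm

/-- **Net locality of the null deformations**, the other side. -/
theorem net_commC' (N : CNet Q H alg S) (Gg : Gnr Q alg S G) {a c y : V} (ha : IsNull a)
    (hc : IsNull c) (hac : 0 < GF.mdot a c) (hy : GF.mdot a y = 0) {X Y Y2 : D → D}
    (hX : X ∈ alg (Wdg c a y)) (hY : ∀ v w, inner ℂ (Y v) w = inner ℂ v (Y2 w))
    (hYc : ∀ Z ∈ alg (Wdg c a y), ∀ v, Y (Z v) = Z (Y v)) (v : D) :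
    G a (X (Y v)) - X (G a (Y v)) = Y (G a (X v) - X (G a v)) := by
  refine nl_core N Gg ha (nl_univ N hX) hY (I' := Set.Iic 0) Set.self_mem_Iic
    (uniqueDiffOn_Iic 0 0 Set.self_mem_Iic) (fun s hs u => ?_) v
  have h1 := N.S_left a c c y y s ha hc hc hac hac hy hy
    (fun z hz h => nl_left ha hac hs hz h) X hX
  exact (hYc _ h1 u).symm

/-! ### Translated generators -/

/-- the generator of the null deformations of the null hyperplane `a·z = a·x` -/
def Gx (Q : GF.Theory D) (G : V → D → D) (a x : V) (v : D) : D :=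
  Q.U 1 GF.one x (G a (Q.U 1 GF.one (-x) v))

lemma nl_UU (x : V) (v : D) : Q.U 1 GF.one x (Q.U 1 GF.one (-x) v) = v := by
  have h := U1_U1_all (Q := Q) (WithLp.toLp 2 x) (-WithLp.toLp 2 x) v
  rw [add_neg_cancel, U1_zero_all] at h
  exact h

lemma nl_UU' (x : V) (v : D) : Q.U 1 GF.one (-x) (Q.U 1 GF.one x v) = v := by
  have h := U1_U1_all (Q := Q) (-WithLp.toLp 2 x) (WithLp.toLp 2 x) v
  rw [neg_add_cancel, U1_zero_all] at h
  exact h

lemma nl_sub (x : V) (v w : D) : Q.U 1 GF.one x (v - w) = Q.U 1 GF.one x v - Q.U 1 GF.one x w := by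
  have h1 : v - w = v + (-1 : ℂ) • w := by rw [neg_one_smul, sub_eq_add_neg]
  rw [h1, U_add one_pos isLor_one, U_smul one_pos isLor_one, neg_one_smul, ← sub_eq_add_neg]

lemma nl_move (x : V) (v w : D) :
    inner ℂ (Q.U 1 GF.one x v) w = inner ℂ v (Q.U 1 GF.one (-x) w) := by
  rw [← Q.U_inner 1 GF.one (-x) (Q.U 1 GF.one x v) w one_pos isLor_one, nl_UU']

lemma nl_move' (x : V) (v w : D) :
    inner ℂ (Q.U 1 GF.one (-x) v) w = inner ℂ v (Q.U 1 GF.one x w) := by
  have := nl_move (Q := Q) (-x) v w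
  rwa [neg_neg] at this

lemma nl_mem (N : CNet Q H alg S) {a c y y' : V} (x : V) (hy : y' = y + x) {X : D → D}
    (hX : X ∈ alg (Wdg a c y)) :
    (fun v => Q.U 1 GF.one x (X (Q.U 1 GF.one (-x) v))) ∈ alg (Wdg a c y') := by
  have h := N.transl _ x X hX
  refine N.mono _ _ ?_ h
  rintro z ⟨u, ⟨hu1, hu2⟩, rfl⟩
  have e : (fun y : V => y + x) u - y' = u - y := by
    show u + x - y' = u - y
    rw [hy]
    abel
  exact ⟨by rw [e]; exact hu1, by rw [e]; exact hu2⟩

lemma nl_mem' (N : CNet Q H alg S) {a c y : V} (x : V) {X : D → D}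
    (hX : X ∈ alg (Wdg a c y)) :
    (fun v => Q.U 1 GF.one (-x) (X (Q.U 1 GF.one x v))) ∈ alg (Wdg a c (y - x)) := by
  have h := nl_mem N (-x) (y' := y - x) (sub_eq_add_neg y x) hX
  rw [neg_neg] at h
  exact h

lemma nl_trans {x : V} {X Y : D → D} {g : D → D}
    (h : ∀ v, g (Q.U 1 GF.one (-x) (X (Q.U 1 GF.one x (Q.U 1 GF.one (-x) (Y (Q.U 1 GF.one x v)))))) -
      Q.U 1 GF.one (-x) (X (Q.U 1 GF.one x (g (Q.U 1 GF.one (-x) (Y (Q.U 1 GF.one x v)))))) =
      Q.U 1 GF.one (-x) (Y (Q.U 1 GF.one x (g (Q.U 1 GF.one (-x) (X (Q.U 1 GF.one x v))) -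
        Q.U 1 GF.one (-x) (X (Q.U 1 GF.one x (g v))))))) (v : D) :
    Q.U 1 GF.one x (g (Q.U 1 GF.one (-x) (X (Y v)))) -
      X (Q.U 1 GF.one x (g (Q.U 1 GF.one (-x) (Y v)))) =
      Y (Q.U 1 GF.one x (g (Q.U 1 GF.one (-x) (X v))) -
        X (Q.U 1 GF.one x (g (Q.U 1 GF.one (-x) v)))) := by
  have h1 := congrArg (Q.U 1 GF.one x) (h (Q.U 1 GF.one (-x) v))
  simp only [nl_UU, nl_sub] at h1
  rw [h1]

lemma nl_adj {x : V} {Y Y2 : D → D} (hY : ∀ v w, inner ℂ (Y v) w = inner ℂ v (Y2 w)) (v w : D) :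
    inner ℂ (Q.U 1 GF.one (-x) (Y (Q.U 1 GF.one x v))) w =
      inner ℂ v (Q.U 1 GF.one (-x) (Y2 (Q.U 1 GF.one x w))) := by
  rw [nl_move', hY, nl_move]

lemma nl_cm (N : CNet Q H alg S) {a c y : V} {x : V} {Y : D → D}
    (hYc : ∀ Z ∈ alg (Wdg a c y), ∀ v, Y (Z v) = Z (Y v)) (Z : D → D)
    (hZ : Z ∈ alg (Wdg a c (y - x))) (v : D) :
    Q.U 1 GF.one (-x) (Y (Q.U 1 GF.one x (Z v))) =
      Z (Q.U 1 GF.one (-x) (Y (Q.U 1 GF.one x v))) := by
  have h := hYc _ (nl_mem N x (y' := y) (by abel) hZ) (Q.U 1 GF.one x v)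
  simp only [nl_UU'] at h
  rw [h, nl_UU']

/-- **Net locality of the translated null deformations.** -/
theorem net_comm_tr (N : CNet Q H alg S) (Gg : Gnr Q alg S G) {a c x y : V} (ha : IsNull a)
    (hc : IsNull c) (hac : 0 < GF.mdot a c) (hy : GF.mdot a y = GF.mdot a x) {X Y Y2 : D → D}
    (hX : X ∈ alg (Wdg a c y)) (hY : ∀ v w, inner ℂ (Y v) w = inner ℂ v (Y2 w))
    (hYc : ∀ Z ∈ alg (Wdg a c y), ∀ v, Y (Z v) = Z (Y v)) (v : D) :
    Gx Q G a x (X (Y v)) - X (Gx Q G a x (Y v)) = Y (Gx Q G a x (X v) - X (Gx Q G a x v)) :=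
  nl_trans (fun w => net_commC N Gg ha hc hac (by rw [gm_sub, hy, sub_self]) (nl_mem' N x hX)
    (nl_adj hY) (nl_cm N hYc) w) v

/-- **Net locality of the translated null deformations**, the other side. -/
theorem net_comm_tr' (N : CNet Q H alg S) (Gg : Gnr Q alg S G) {a c x y : V} (ha : IsNull a)
    (hc : IsNull c) (hac : 0 < GF.mdot a c) (hy : GF.mdot a y = GF.mdot a x) {X Y Y2 : D → D}
    (hX : X ∈ alg (Wdg c a y)) (hY : ∀ v w, inner ℂ (Y v) w = inner ℂ v (Y2 w))
    (hYc : ∀ Z ∈ alg (Wdg c a y), ∀ v, Y (Z v) = Z (Y v)) (v : D) :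
    Gx Q G a x (X (Y v)) - X (Gx Q G a x (Y v)) = Y (Gx Q G a x (X v) - X (Gx Q G a x v)) :=
  nl_trans (fun w => net_commC' N Gg ha hc hac (by rw [gm_sub, hy, sub_self]) (nl_mem' N x hX)
    (nl_adj hY) (nl_cm N hYc) w) v

/-- version with `Y` in the algebra of the opposite wedge -/
theorem net_comm (N : CNet Q H alg S) (Gg : Gnr Q alg S G) {a c x y : V} (ha : IsNull a)
    (hc : IsNull c) (hac : 0 < GF.mdot a c) (hy : GF.mdot a y = GF.mdot a x) {X Y : D → D}
    (hX : X ∈ alg (Wdg a c y)) (hY : Y ∈ alg (Wdg c a y)) (v : D) :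
    Gx Q G a x (X (Y v)) - X (Gx Q G a x (Y v)) = Y (Gx Q G a x (X v) - X (Gx Q G a x v)) := by
  obtain ⟨Y2, -, hY2⟩ := N.adj _ Y hY
  exact net_comm_tr N Gg ha hc hac hy hX hY2
    (fun Z hZ u => (N.loc a c y ha hc hac Z hZ Y hY u).symm) v

/-- version with `Y` in the algebra of the opposite wedge -/
theorem net_comm' (N : CNet Q H alg S) (Gg : Gnr Q alg S G) {a c x y : V} (ha : IsNull a)
    (hc : IsNull c) (hac : 0 < GF.mdot a c) (hy : GF.mdot a y = GF.mdot a x) {X Y : D → D}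
    (hX : X ∈ alg (Wdg c a y)) (hY : Y ∈ alg (Wdg a c y)) (v : D) :
    Gx Q G a x (X (Y v)) - X (Gx Q G a x (Y v)) = Y (Gx Q G a x (X v) - X (Gx Q G a x v)) := by
  obtain ⟨Y2, -, hY2⟩ := N.adj _ Y hY
  exact net_comm_tr' N Gg ha hc hac hy hX hY2
    (fun Z hZ u => N.loc a c y ha hc hac Y hY Z hZ u) v

end Vale.Agent.P352.H834
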