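import Vale.Agent.P352.H834.NL

set_option linter.all false

/-!
# Net locality of double commutators with the generators of the null deformations

For `X ∈ alg (Wdg a c y)`, `a·x = a·y`, `a·x' = a·y'`, `Wdg a c y ⊆ Wdg a c y'`, the double
commutator `[Gx a x', [Gx a x, X]]` commutes with the operators `Y` that commute with
`alg (Wdg a c y')`.
-/

noncomputable section

open MeasureTheory SchwartzMap Complex Filter Topology
open scoped SchwartzMap ComplexConjugate ENNReal LineDeriv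

namespace Vale.Agent.P352.H834

open GF (Ix V Fn Sch ev pd bar sim bas o)
open H246 H496
open UniformSpace (Completion)

variable {D : Type*} [NormedAddCommGroup D] [InnerProductSpace ℂ D]
variable {Q : GF.Theory D}
variable {H : D → D} {alg : Set V → Set (D → D)} {S : V → ℝ → D → D} {G : V → D → D}

/-- the operator `X` deformed along the null hyperplane `a·z = a·x` -/
def Sx (Q : GF.Theory D) (S : V → ℝ → D → D) (a x : V) (X : D → D) (s : ℝ) (v : D) : D :=
  Q.U 1 GF.one x (S a s (Q.U 1 GF.one (-x) (X (Q.U 1 GF.one x (S a (-s)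
    (Q.U 1 GF.one (-x) v))))))

/-- the commutator with the translated generator -/
def Kx (Q : GF.Theory D) (G : V → D → D) (a x : V) (X : D → D) (v : D) : D :=
  Gx Q G a x (X v) - X (Gx Q G a x v)

lemma Gx_adj (N : CNet Q H alg S) (Gg : Gnr Q alg S G) {a : V} (ha : IsNull a) (x : V) (v w : D) :
    inner ℂ (Gx Q G a x v) w = inner ℂ v (Gx Q G a x w) := by
  rw [Gx, Gx, nl_move, nl_Gadj N Gg ha, nl_move']

/-- derivative of the translated deformed operator -/
theorem Sx_der (N : CNet Q H alg S) (Gg : Gnr Q alg S G) {a : V} (ha : IsNull a) (x : V)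
    {X : D → D} (hX : X ∈ alg Set.univ) (w v : D) :
    HasDerivAt (fun s : ℝ => inner ℂ w (Sx Q S a x X s v)) (I * inner ℂ w (Kx Q G a x X v)) 0 := by
  have hX' : (fun v => Q.U 1 GF.one (-x) (X (Q.U 1 GF.one x v))) ∈ alg Set.univ := by
    have h := N.transl _ (-x) X hX
    rw [neg_neg] at h
    exact N.mono _ _ (Set.subset_univ _) h
  have h1 := nl_der N Gg ha hX' (Q.U 1 GF.one (-x) w) (Q.U 1 GF.one (-x) v)
  have e1 : (fun s : ℝ => inner ℂ w (Sx Q S a x X s v)) = fun s : ℝ =>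
      inner ℂ (Q.U 1 GF.one (-x) w) (S a s (Q.U 1 GF.one (-x) (X (Q.U 1 GF.one x (S a (-s)
        (Q.U 1 GF.one (-x) v)))))) := by
    funext s
    rw [nl_move']; rfl
  rw [e1]
  refine h1.congr_deriv ?_
  rw [nl_move', nl_sub]
  simp only [nl_UU]
  rfl

/-- from net locality of the deformed operators to double commutators -/
theorem dbl_core (N : CNet Q H alg S) (Gg : Gnr Q alg S G) {a x b x' : V} (ha : IsNull a)
    (hb : IsNull b) {X Y Y2 : D → D} (hX : X ∈ alg Set.univ)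
    (hY : ∀ v w, inner ℂ (Y v) w = inner ℂ v (Y2 w))
    {I' : Set ℝ} (h0 : (0 : ℝ) ∈ I') (hI : UniqueDiffWithinAt ℝ I' 0)
    (hc : ∀ s ∈ I', ∀ v, Kx Q G b x' (Sx Q S a x X s) (Y v) = Y (Kx Q G b x' (Sx Q S a x X s) v))
    (v : D) : Kx Q G b x' (Kx Q G a x X) (Y v) = Y (Kx Q G b x' (Kx Q G a x X) v) := by
  have hA : H496.Adj Y Y2 := hY
  have hA' : H496.Adj Y2 Y := hA.symm
  refine ext_inner_left ℂ fun w => ?_
  have key : ∀ (p u : D), HasDerivAt (fun s : ℝ => inner ℂ p (Kx Q G b x' (Sx Q S a x X s) u))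
      (I * inner ℂ p (Kx Q G b x' (Kx Q G a x X) u)) 0 := by
    intro p u
    have h1 := (Sx_der N Gg ha x hX (Gx Q G b x' p) u).fun_sub
      (Sx_der N Gg ha x hX p (Gx Q G b x' u))
    have e1 : (fun s : ℝ => inner ℂ p (Kx Q G b x' (Sx Q S a x X s) u)) = fun s : ℝ =>
        inner ℂ (Gx Q G b x' p) (Sx Q S a x X s u) -
          inner ℂ p (Sx Q S a x X s (Gx Q G b x' u)) := by
      funext s
      rw [Kx, inner_sub_right, Gx_adj N Gg hb]
    rw [e1]
    refine h1.congr_deriv ?_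
    rw [show Kx Q G b x' (Kx Q G a x X) u = Gx Q G b x' (Kx Q G a x X u) -
      Kx Q G a x X (Gx Q G b x' u) from rfl, inner_sub_right, Gx_adj N Gg hb]
    ring
  have h1 := (key w (Y v)).hasDerivWithinAt (s := I')
  have h2 := (key (Y2 w) v).hasDerivWithinAt (s := I')
  have h3 : HasDerivWithinAt (fun s : ℝ => inner ℂ w (Kx Q G b x' (Sx Q S a x X s) (Y v)))
      (I * inner ℂ (Y2 w) (Kx Q G b x' (Kx Q G a x X) v)) I' 0 := by
    refine h2.congr (fun s hs => ?_) ?_
    · rw [hc s hs v]; exact (hA' w _).symm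
    · rw [hc 0 h0 v]; exact (hA' w _).symm
  have h4 := hI.eq_deriv _ h1 h3
  have h5 := mul_left_cancel₀ I_ne_zero h4
  rw [h5]
  exact hA' w _

lemma Sx_mem (N : CNet Q H alg S) {a c x y : V} (ha : IsNull a) (hc : IsNull c)
    (hac : 0 < GF.mdot a c) (hy : GF.mdot a y = GF.mdot a x) {X : D → D}
    (hX : X ∈ alg (Wdg a c y)) {s : ℝ} (hs : 0 ≤ s) : Sx Q S a x X s ∈ alg (Wdg a c y) := by
  have hy0 : GF.mdot a (y - x) = 0 := by rw [gm_sub, hy, sub_self]
  have h1 := N.S_right a c c (y - x) (y - x) s ha hc hc hac hac hy0 hy0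
    (fun z hz h => nl_right ha hac hs hz h) _ (nl_mem' N x hX)
  exact nl_mem N x (y' := y) (by abel) h1

lemma Sx_mem' (N : CNet Q H alg S) {a c x y : V} (ha : IsNull a) (hc : IsNull c)
    (hac : 0 < GF.mdot a c) (hy : GF.mdot a y = GF.mdot a x) {X : D → D}
    (hX : X ∈ alg (Wdg c a y)) {s : ℝ} (hs : s ≤ 0) : Sx Q S a x X s ∈ alg (Wdg c a y) := by
  have hy0 : GF.mdot a (y - x) = 0 := by rw [gm_sub, hy, sub_self]
  have h1 := N.S_left a c c (y - x) (y - x) s ha hc hc hac hac hy0 hy0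
    (fun z hz h => nl_left ha hac hs hz h) _ (nl_mem' N x hX)
  exact nl_mem N x (y' := y) (by abel) h1

/-- **Net locality of the double commutators** with two translated generators of null deformations
(the wedge `Wdg a c y` of `X`, a bigger wedge `Wdg b c' y'` with edge in the hyperplane
`b·z = b·x'`). -/
theorem dbl_gen (N : CNet Q H alg S) (Gg : Gnr Q alg S G) {a c x y b c' x' y' : V} (ha : IsNull a)
    (hc : IsNull c) (hac : 0 < GF.mdot a c) (hy : GF.mdot a y = GF.mdot a x)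
    (hb : IsNull b) (hc' : IsNull c') (hbc : 0 < GF.mdot b c')
    (hy' : GF.mdot b y' = GF.mdot b x') (hsub : Wdg a c y ⊆ Wdg b c' y') {X Y Y2 : D → D}
    (hX : X ∈ alg (Wdg a c y)) (hY : ∀ v w, inner ℂ (Y v) w = inner ℂ v (Y2 w))
    (hYc : ∀ Z ∈ alg (Wdg b c' y'), ∀ v, Y (Z v) = Z (Y v)) (v : D) :
    Kx Q G b x' (Kx Q G a x X) (Y v) = Y (Kx Q G b x' (Kx Q G a x X) v) :=
  dbl_core N Gg ha hb (nl_univ N hX) hY (I' := Set.Ici 0) Set.self_mem_Ici
    (uniqueDiffOn_Ici 0 0 Set.self_mem_Ici)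
    (fun s hs u => net_comm_tr N Gg hb hc' hbc hy'
      (N.mono _ _ hsub (Sx_mem N ha hc hac hy hX hs)) hY hYc u) v

/-- **dbl**: net locality of the double commutators, one null direction. -/
theorem dbl (N : CNet Q H alg S) (Gg : Gnr Q alg S G) {a c x y x' y' : V} (ha : IsNull a)
    (hc : IsNull c) (hac : 0 < GF.mdot a c) (hy : GF.mdot a y = GF.mdot a x)
    (hy' : GF.mdot a y' = GF.mdot a x') (hsub : Wdg a c y ⊆ Wdg a c y') {X Y Y2 : D → D}
    (hX : X ∈ alg (Wdg a c y)) (hY : ∀ v w, inner ℂ (Y v) w = inner ℂ v (Y2 w))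
    (hYc : ∀ Z ∈ alg (Wdg a c y'), ∀ v, Y (Z v) = Z (Y v)) (v : D) :
    Kx Q G a x' (Kx Q G a x X) (Y v) = Y (Kx Q G a x' (Kx Q G a x X) v) :=
  dbl_gen N Gg ha hc hac hy ha hc hac hy' hsub hX hY hYc v

/-- **dbl**, the other side. -/
theorem dbl' (N : CNet Q H alg S) (Gg : Gnr Q alg S G) {a c x y x' y' : V} (ha : IsNull a)
    (hc : IsNull c) (hac : 0 < GF.mdot a c) (hy : GF.mdot a y = GF.mdot a x)
    (hy' : GF.mdot a y' = GF.mdot a x') (hsub : Wdg c a y ⊆ Wdg c a y') {X Y Y2 : D → D}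
    (hX : X ∈ alg (Wdg c a y)) (hY : ∀ v w, inner ℂ (Y v) w = inner ℂ v (Y2 w))
    (hYc : ∀ Z ∈ alg (Wdg c a y'), ∀ v, Y (Z v) = Z (Y v)) (v : D) :
    Kx Q G a x' (Kx Q G a x X) (Y v) = Y (Kx Q G a x' (Kx Q G a x X) v) :=
  dbl_core N Gg ha ha (nl_univ N hX) hY (I' := Set.Iic 0) Set.self_mem_Iic
    (uniqueDiffOn_Iic 0 0 Set.self_mem_Iic)
    (fun s hs u => net_comm_tr' N Gg ha hc hac hy'
      (N.mono _ _ hsub (Sx_mem' N ha hc hac hy hX hs)) hY hYc u) v

end Vale.Agent.P352.H834
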